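import Vale.Agent.P113.Compiler

/-!
Halting detection by particle trajectories of forced Navier-Stokes flows from rest.
-/

namespace Vale.Agent.Results.P113.ForcedFlowHalting

open Vale.Agent.P113
open scoped ContDiff

theorem result :
    ∃ (a lo hi : Fin 3 → ℚ) (T0 : ℝ) (C : Machine × List ℕ → Force),
      (∀ i, lo i < hi i) ∧
      Computable C ∧
      (∀ p i, ∀ T ∈ (C p).component i, TermValid T) ∧
      (∀ M w w', (C (M, w)).periodicPart = (C (M, w')).periodicPart) ∧
      (∀ p i, ∀ T ∈ (C p).component i, termPeriodic T = false →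
        ∀ (nu t : ℝ) (x : Fin 3 → ℝ), T0 ≤ t → termVal nu T t x = 0) ∧
      ∀ nu : ℝ, 0 < nu → ∀ (M : Machine) (w : List ℕ), M.Valid →
        (∀ s ∈ w, s < M.numSymbols) →
        ContDiff ℝ ∞ (fun z : ℝ × (Fin 3 → ℝ) => forceVal nu (C (M, w)) z.1 z.2) ∧
        ∃ (u : ℝ → (Fin 3 → ℝ) → Fin 3 → ℝ) (p : ℝ → (Fin 3 → ℝ) → ℝ),
          IsUniqueGlobalSmoothSolution nu (forceVal nu (C (M, w))) u p ∧
          (∃ X, IsTrajectory u (fun i => (a i : ℝ)) X) ∧
          ∀ X, IsTrajectory u (fun i => (a i : ℝ)) X →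
            ((∃ t : ℝ, 0 ≤ t ∧ InBox lo hi (X t)) ↔ M.Halts w) := by
  refine ⟨basePoint, targetLo, targetHi, 1 / 2, compile, ?_, compile_primrec.to_comp, ?_, ?_, ?_,
    ?_⟩
  · intro i
    fin_cases i <;> simp [targetLo, targetHi] <;> norm_num
  · exact fun p i => compiledForce_valid (Shift.clean_bounded _) _ i
  · intro M w w'
    simp only [compile, compiledForce_periodicPart]
  · exact fun p i T hT hp nu t x ht => compiledForce_transient nu _ _ i hT hp ht x
  · intro nu hnu M w hM hw
    have hb := Shift.clean_bounded (shiftOf M)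
    refine ⟨compiledForce_smooth nu hb _, _, _,
      velocity_unique_solution hnu.le hb (initConf M w), ?_⟩
    have hG := shiftOf_good hM
    obtain ⟨hr, hlive, hiff⟩ := shift_simulates hM hw
    rw [hG.clean_eq]
    refine ⟨⟨_, path_trajectory hG hr hlive nu rfl⟩, fun X hX => ?_⟩
    exact (visits_iff hG hr hlive nu rfl hX).trans hiff

end Vale.Agent.Results.P113.ForcedFlowHalting
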